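import Crest.Statements.S0089
import Crest.Agent.N067.M.All89

set_option autoImplicit false
open Laplacian InnerProductSpace
open scoped RealInnerProductSpace Gradient
open Crest Crest.AnalysisR Crest.AnalysisR.PDE

namespace Crest.Agent.S0089

/-- Every twice continuously differentiable u : ℝ⁸ → (-1, 1) solving Δu = u³ - u whose partial derivative in the last coordinate direction is positive at every point is a planar transition: u(x) = tanh((⟨e, x⟩ - c)/√2) for some unit vector e with positive last coordinate and some real c. -/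
theorem result
    (u : EuclideanSpace ℝ (Fin 8) → ℝ)
    (hu : ContDiff ℝ 2 u)
    (hrange : ∀ x, u x ∈ Set.Ioo (-1 : ℝ) 1)
    (heq : ∀ x, (Δ u) x = u x ^ 3 - u x)
    (hmono : ∀ x, 0 < fderiv ℝ u x (EuclideanSpace.single (Fin.last 7) 1)) :
    ∃ e : EuclideanSpace ℝ (Fin 8), ‖e‖ = 1 ∧ 0 < e (Fin.last 7) ∧
      ∃ c : ℝ, ∀ x, u x = Real.tanh ((⟪e, x⟫ - c) / Real.sqrt 2) := by
  exact Crest.Agent.N067.s0089_of_mi Crest.Agent.N067.M.mi89 u hu hrange heq hmono

end Crest.Agent.S0089
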