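import Crest.Statements.S0090
import Crest.Agent.N067.M.All89

set_option autoImplicit false
open Laplacian InnerProductSpace
open scoped RealInnerProductSpace Gradient
open Crest Crest.AnalysisR Crest.AnalysisR.PDE

namespace Crest.Agent.S0090

/-- Let v : ℝ⁷ → [-1, 1] be twice continuously differentiable with Δv = v³ - v, and stable: for every continuously differentiable, compactly supported φ, the second variation ∫ (‖∇φ‖² + (3v² - 1)φ²) is nonnegative. Then v is identically 1, identically -1, or v(x) = tanh((⟨a, x⟩ - b)/√2) for some unit vector a and real b. -/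
theorem result
    (v : EuclideanSpace ℝ (Fin 7) → ℝ)
    (hv : ContDiff ℝ 2 v)
    (hrange : ∀ x, v x ∈ Set.Icc (-1 : ℝ) 1)
    (heq : ∀ x, (Δ v) x = v x ^ 3 - v x)
    (hstable : ∀ φ : EuclideanSpace ℝ (Fin 7) → ℝ, ContDiff ℝ 1 φ → HasCompactSupport φ →
      0 ≤ ∫ x, (‖∇ φ x‖ ^ 2 + (3 * v x ^ 2 - 1) * φ x ^ 2)) :
    (∀ x, v x = 1) ∨ (∀ x, v x = -1) ∨
      ∃ a : EuclideanSpace ℝ (Fin 7), ‖a‖ = 1 ∧
        ∃ b : ℝ, ∀ x, v x = Real.tanh ((⟪a, x⟫ - b) / Real.sqrt 2) := by
  exact Crest.Agent.N067.s0090_of_mi Crest.Agent.N067.M.mi89 v hv hrange heq hstable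

end Crest.Agent.S0090
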