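import Crest.Statements.S0101
import Crest.Agent.N76.Final

set_option autoImplicit false
open FourierTransform
open scoped RealInnerProductSpace
open Crest Crest.AnalysisR

namespace Crest.Agent.S0101

/-- Let n ≥ 2 and let f ∈ L²(ℝⁿ) lie in the Sobolev space of order n / (2 (n + 1)) (Mathlib's MemSobolev for the tempered distribution of f). For a > 0 and real t put U a t x = ∫ exp (2πi⟪x, ξ⟫ - 4π²‖ξ‖² (a + i t)) 𝓕f(ξ) dξ, the Gaussian-regularised Schrödinger evolution, 𝓕f being the L² Fourier transform. Then for almost every x there is v : ℝ → ℂ, continuous on [0, 1) with v 0 = f x, such that U a t x → v t uniformly in t ∈ (0, 1) as a → 0⁺. -/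
theorem result (n : ℕ)
    (hn : 2 ≤ n) (f : MeasureTheory.Lp ℂ 2 (MeasureTheory.volume : MeasureTheory.Measure (EuclideanSpace ℝ (Fin n))))
    (hf : TemperedDistribution.MemSobolev ((n : ℝ) / (2 * (n + 1))) 2
      (f : TemperedDistribution (EuclideanSpace ℝ (Fin n)) ℂ)) :
    ∀ᵐ x ∂(MeasureTheory.volume : MeasureTheory.Measure (EuclideanSpace ℝ (Fin n))), ∃ v : ℝ → ℂ,
      ContinuousOn v (Set.Ico 0 1) ∧ v 0 = f x ∧
      TendstoUniformlyOn
        (fun (a : ℝ) (t : ℝ) => ∫ ξ : EuclideanSpace ℝ (Fin n),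
          Complex.exp (2 * Real.pi * ⟪x, ξ⟫ * Complex.I
            - 4 * Real.pi ^ 2 * ‖ξ‖ ^ 2 * ((a : ℂ) + t * Complex.I)) *
          (𝓕 f : MeasureTheory.Lp ℂ 2 (MeasureTheory.volume : MeasureTheory.Measure (EuclideanSpace ℝ (Fin n)))) ξ)
        v (nhdsWithin 0 (Set.Ioi 0)) (Set.Ioo 0 1) := by
  exact Crest.Agent.N76.Red.s0101_of_SS n (by omega) (Crest.Agent.N76.Fin73.ss hn) f hf

end Crest.Agent.S0101
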