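import Crest.Statements.S0146
import Crest.Agent.N111.Final

set_option autoImplicit false
open Crest Crest.AnalysisR

namespace Crest.Agent.S0146

/-- Let `L(G)` be the group von Neumann algebra of `G` (double commutant of the left translations on `ℓ²(G)`) and `Γ` the group of `3 × 3` integer matrices of determinant one. (i) `L(Γ)` is isomorphic as an operator *-algebra to no proper corner `p L(Γ) p`, `p ≠ 1` a projection of `L(Γ)`; (ii) every countably infinite group with infinite non-identity conjugacy classes whose group von Neumann algebra is isomorphic to `L(Γ)` as an operator *-algebra is isomorphic to `Γ`. -/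
theorem result :
    (∀ p ∈ Crest.OperatorAlgebra.groupVonNeumann (Matrix.SpecialLinearGroup (Fin 3) ℤ),
      p * p = p → star p = p → p ≠ 1 →
      ¬ ∃ φ, Crest.OperatorAlgebra.IsStarAlgIso
        (Crest.OperatorAlgebra.groupVonNeumann (Matrix.SpecialLinearGroup (Fin 3) ℤ))
        (Crest.OperatorAlgebra.corner
          (Crest.OperatorAlgebra.groupVonNeumann (Matrix.SpecialLinearGroup (Fin 3) ℤ)) p) φ) ∧
    ∀ (Λ : Type) [Group Λ] [Countable Λ] [Infinite Λ], Crest.OperatorAlgebra.IsICC Λ →
      (∃ φ, Crest.OperatorAlgebra.IsStarAlgIso (Crest.OperatorAlgebra.groupVonNeumann Λ)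
        (Crest.OperatorAlgebra.groupVonNeumann (Matrix.SpecialLinearGroup (Fin 3) ℤ)) φ) →
      Nonempty (Λ ≃* Matrix.SpecialLinearGroup (Fin 3) ℤ) := by
  exact Crest.Agent.N111.final

end Crest.Agent.S0146
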