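import Crest.Statements.S0317
import Crest.Agent.N206.PL.Top
import Crest.Agent.N206.PL.Reduce
import Crest.Agent.N206.PL.Eff0
import Crest.Agent.N206.PL.Eff
import Crest.Agent.N206.PL.Sel
import Crest.Agent.N206.PL.KPR
import Crest.Agent.N206.PL.Noise
import Crest.Agent.N206.PL.Neck
import Crest.Agent.N206.PL.NeckIneq
import Crest.Agent.N206.PL.Split
import Crest.Agent.N206.PL.Portal
import Crest.Agent.N206.PL.LemB
import Crest.Agent.N206.PL.Protect.Main
import Crest.Agent.N206.PL.Serve
import Crest.Agent.N206.PL.Level
import Crest.Agent.N206.TA.Gain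
import Crest.Agent.N206.TA.Alg
import Crest.Agent.N206.TA.Root
import Crest.Agent.N206.TA.Geom

set_option autoImplicit false
open MeasureTheory Crest.GeometryTopology.GraphMetric
open Crest Crest.GeometryTopology Crest.GeometryTopology.GraphMetric

namespace Crest.Agent.S0317

/-- There is a universal constant `C` such that for every finite connected planar graph `G` (planar: it has a drawing in the plane with vertices at distinct points and edges as simple arcs meeting only at common endpoints) and every assignment of positive real lengths to its edges, the shortest-path metric of `G` embeds into a real `L¹(μ)` space with distortion at most `C`: some map `f` satisfies `d(x,y) ≤ ‖f x - f y‖ ≤ C d(x,y)` for all vertices. -/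
theorem result :
    ∃ C : ℝ, ∀ (V : Type) [Fintype V] (G : SimpleGraph V), G.Connected → IsPlanar G →
      ∀ ℓ : Sym2 V → ℝ, (∀ e ∈ G.edgeSet, 0 < ℓ e) →
        ∃ (Ω : Type) (_ : MeasurableSpace Ω) (μ : Measure Ω) (f : V → Lp ℝ 1 μ),
          ∀ x y : V, wdist G ℓ x y ≤ ‖f x - f y‖ ∧ ‖f x - f y‖ ≤ C * wdist G ℓ x y := by
  have hk := N206.PL.kpr N206.PL.sel
  have hn := N206.PL.noise hk
  have ha := N206.TA.a2_of N206.TA.gain N206.PL.sel N206.TA.geom N206.TA.alg N206.TA.root
  exact N206.PL.reduce' N206.PL.top (N206.PL.eff0 (N206.PL.eff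
    (N206.PL.level hn (N206.PL.protect hk N206.PL.portal N206.PL.lemB') (N206.PL.serve hk hn ha))
    N206.PL.split (N206.PL.neckIneq N206.PL.neck)))

end Crest.Agent.S0317
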