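import Crest.Statements.S0318
import Crest.Agent.N206.TW.Main
import Crest.Agent.N206.TW.Final
import Crest.Agent.N206.TW.Glue
import Crest.Agent.N206.TW.Markov
-- import your own Crest.Agent.* helpers here

set_option autoImplicit false
open MeasureTheory Crest.GeometryTopology.GraphMetric
open Crest Crest.GeometryTopology Crest.GeometryTopology.GraphMetric

namespace Crest.Agent.S0318

/-- For every `k ≥ 2` there is a constant `C_k` such that for every finite connected graph `G` admitting a tree decomposition whose bags have at most `k` vertices, and every assignment of positive real lengths to its edges, the shortest-path metric of `G` embeds into a real `L¹(μ)` space with distortion at most `C_k`: some map `f` satisfies `d(x,y) ≤ ‖f x - f y‖ ≤ C_k d(x,y)` for all vertices. -/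
theorem result :
    ∀ k : ℕ, 2 ≤ k → ∃ C : ℝ, ∀ (V : Type) [Fintype V] (G : SimpleGraph V), G.Connected →
      HasTreeDecompWithBags G k →
      ∀ ℓ : Sym2 V → ℝ, (∀ e ∈ G.edgeSet, 0 < ℓ e) →
        ∃ (Ω : Type) (_ : MeasurableSpace Ω) (μ : Measure Ω) (f : V → Lp ℝ 1 μ),
          ∀ x y : V, wdist G ℓ x y ≤ ‖f x - f y‖ ∧ ‖f x - f y‖ ≤ C * wdist G ℓ x y :=
  N206.TW.s0318_of_main (N206.TW.main N206.TW.glue N206.TW.markov)

end Crest.Agent.S0318
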