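import Crest.Statements.S0319
import Crest.Agent.N207.Sk.Fin
import Crest.Agent.N207.Ph.Fin
import Crest.Agent.N207.N.Fin0
import Crest.Agent.N207.CB.LF1
import Crest.Agent.N207.CB.Gl4
import Crest.Agent.N207.L.Xy

set_option autoImplicit false
open scoped ContDiff Manifold
open Bundle Crest.GeometryTopology.CoordMetric Crest.GeometryTopology.ChartCurvature Crest.GeometryTopology.MetricFamily
open Crest Crest.GeometryTopology

namespace Crest.Agent.S0319

/-- Let M be a compact connected smooth 4-manifold without boundary and g(t), 0 ≤ t < T (T > 0), a smooth one-parameter family of Riemannian metrics on M solving the Ricci flow equation ∂ₜg = −2 Ric (coefficients and curvature read in charts), smooth up to t = 0. If the scalar curvature is bounded on M × [0,T), then for some ε > 0 there is a smooth Ricci flow on [0, T + ε) that agrees with g on [0, T). -/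
theorem result
    (M : Type*) [TopologicalSpace M] [T2Space M] [SecondCountableTopology M] [CompactSpace M]
    [ConnectedSpace M] [ChartedSpace (EuclideanSpace ℝ (Fin 4)) M] [IsManifold 𝓘(ℝ, EuclideanSpace ℝ (Fin 4)) ∞ M]
    (T : ℝ) (hT : 0 < T) (g : FormFamily 𝓘(ℝ, EuclideanSpace ℝ (Fin 4)) M)
    (hg : IsRicciFlowOn 𝓘(ℝ, EuclideanSpace ℝ (Fin 4)) (ContinuousLinearEquiv.refl ℝ (EuclideanSpace ℝ (Fin 4))) M g T)
    (hR : HasBoundedScalarCurvature 𝓘(ℝ, EuclideanSpace ℝ (Fin 4)) (ContinuousLinearEquiv.refl ℝ (EuclideanSpace ℝ (Fin 4))) M g T) :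
    ∃ ε : ℝ, 0 < ε ∧ ∃ g' : FormFamily 𝓘(ℝ, EuclideanSpace ℝ (Fin 4)) M,
      IsRicciFlowOn 𝓘(ℝ, EuclideanSpace ℝ (Fin 4)) (ContinuousLinearEquiv.refl ℝ (EuclideanSpace ℝ (Fin 4))) M g' (T + ε) ∧
        ∀ t ∈ Set.Ico 0 T, g' t = g t := by
  exact N207.Sk.s0319_mod2 M (fun _ _ _ hB => N207.Ph.phiF hB)
    (N207.NS.swl_L fun T => N207.CB.lstmt_of (N207.CB.glb T) N207.L.xns N207.L.Xy.xhs) T hT g hg hR

end Crest.Agent.S0319
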