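import Crest.Statements.S0320
import Crest.Agent.N207.S.Top.Gl4
import Crest.Agent.N207.S.Ex.Core
import Crest.Agent.N207.S.Ex.Pro2
import Crest.Agent.N207.S.Ga.Fin
import Crest.Agent.N207.S.Rg.Top
import Crest.Agent.N207.S.Out.Tr
import Crest.Agent.N207.S.I1.All
import Crest.Agent.N207.S.Id1
import Crest.Agent.N207.S.In.Post
import Crest.Agent.N207.S.Da.Top

set_option autoImplicit false
open scoped ContDiff Manifold
open Bundle Crest.GeometryTopology.CoordMetric Crest.GeometryTopology.ChartCurvature Crest.GeometryTopology.MetricFamily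
open Crest Crest.GeometryTopology

namespace Crest.Agent.S0320

/-- For some integer q ≥ 10 and some T > 0 there is a smooth Ricci flow g(t), 0 ≤ t < T, on the closed manifold S² × S^(q+1) (product of unit spheres, with its product smooth structure; coefficients and curvature read in charts), smooth up to t = 0, whose scalar curvature is bounded on the whole of S² × S^(q+1) × [0,T) while the maximum over the manifold of the squared norm of the Riemann tensor tends to +∞ as t ↑ T. -/
theorem result :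
    ∃ q : ℕ, 10 ≤ q ∧ ∃ T : ℝ, 0 < T ∧
      ∃ g : FormFamily ((𝓡 2).prod (𝓡 (q + 1)))
          (Metric.sphere (0 : EuclideanSpace ℝ (Fin (2 + 1))) 1 × Metric.sphere (0 : EuclideanSpace ℝ (Fin (q + 1 + 1))) 1),
        IsRicciFlowOn ((𝓡 2).prod (𝓡 (q + 1)))
            (@EuclideanSpace.finAddEquivProd ℝ _ 2 (q + 1)).symm
            (Metric.sphere (0 : EuclideanSpace ℝ (Fin (2 + 1))) 1 × Metric.sphere (0 : EuclideanSpace ℝ (Fin (q + 1 + 1))) 1) g T ∧
          HasBoundedScalarCurvature ((𝓡 2).prod (𝓡 (q + 1)))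
            (@EuclideanSpace.finAddEquivProd ℝ _ 2 (q + 1)).symm
            (Metric.sphere (0 : EuclideanSpace ℝ (Fin (2 + 1))) 1 × Metric.sphere (0 : EuclideanSpace ℝ (Fin (q + 1 + 1))) 1) g T ∧
          CurvatureBlowsUpAt ((𝓡 2).prod (𝓡 (q + 1)))
            (@EuclideanSpace.finAddEquivProd ℝ _ 2 (q + 1)).symm
            (Metric.sphere (0 : EuclideanSpace ℝ (Fin (2 + 1))) 1 × Metric.sphere (0 : EuclideanSpace ℝ (Fin (q + 1 + 1))) 1) g T := by
  obtain ⟨q, hq, h⟩ := N207.S.Top.goal (N207.S.Ex.flow_of_core N207.S.Ex.core) N207.S.Ga.gaNear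
    N207.S.Ga.gaFin N207.S.Rg.regStmt N207.S.Out.outerStmt
    (N207.S.I1.inner_of N207.S.I1.preStmt) N207.S.In.post N207.S.Da.dataStmt
  exact N207.S.Gb.s0320_of hq h

end Crest.Agent.S0320
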