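import Crest.Statements.S0337
import Crest.Agent.N218.Sk.Al3
import Crest.Agent.N218.D6.Lj2
import Crest.Agent.N218.D6.Pms
import Crest.Agent.N218.D6.LjGn
import Crest.Agent.N218.D6.LjGs
import Crest.Agent.N218.D6.LjPat2
import Crest.Agent.N218.D6.LjPol
import Crest.Agent.N218.D6.LjZer
import Crest.Agent.N218.D6.LjEnd

set_option autoImplicit false
open scoped Manifold ContDiff
open Crest.GeometryTopology.CotangentSpheres
open Crest Crest.GeometryTopology

namespace Crest.Agent.S0337

/-- For some odd m (so that N = m + 1 is even) there is an exact Lagrangian embedding ι of Q = S⁹ × Sᵐ into its cotangent bundle, presented inside Euclidean space with canonical one-form ⟨u, da⟩ + ⟨v, db⟩, whose image cannot be reached from the zero section through exact Lagrangian embeddings: no map F : ℝ × Q → T*Q, jointly smooth, with every F(s, ·) an exact Lagrangian embedding, has F(0, ·) equal to the zero section and F(1, ·) with the same image as ι. -/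
theorem result :
    ∃ m : ℕ, Odd m ∧ ∃ ι : Sph 9 × Sph m → Amb m, IsExactLagEmbedding m ι ∧
      ¬ ∃ F : ℝ → Sph 9 × Sph m → Amb m,
          ContMDiff (𝓘(ℝ, ℝ).prod ((𝓡 9).prod (𝓡 m))) 𝓘(ℝ, Amb m) ∞
              (fun p : ℝ × (Sph 9 × Sph m) => F p.1 p.2) ∧
            (∀ s, IsExactLagEmbedding m (F s)) ∧ F 0 = zeroSection m ∧
            Set.range (F 1) = Set.range ι := by
  open Crest.Agent.N218 in
  exact Sk.last (D6.Lj.loca0 D6.Lj.gn D6.Lj.gs D6.Lj.pat2 D6.Lj.pol D6.Lj.zer (D6.Lj.lend D6.Lj.gs) D6.pms)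

end Crest.Agent.S0337
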