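import Crest.Statements.S0343
import Crest.Agent.N222.T.Final

set_option autoImplicit false
open Crest.GeometryTopology.Submanifold
open Crest Crest.GeometryTopology

namespace Crest.Agent.S0343

/-- Let S be a compact connected n-dimensional smooth submanifold of Euclidean N-space (given through local parametrisations) that is aspherical: all homotopy groups π_k(S), k ≥ 2, are trivial. If the induced Riemannian metric has non-negative scalar curvature everywhere (computed from any local parametrisation by the Gauss equation), then it is flat: every component of its Riemann tensor vanishes at every point. -/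
theorem result
    (n N : ℕ) (S : Set (EuclideanSpace ℝ (Fin N))) (hS : IsSubmanifold n N S)
    (hcpt : IsCompact S) (hconn : IsConnected S)
    (hasph : ∀ k : ℕ, 2 ≤ k → ∀ x : S, Subsingleton (HomotopyGroup (Fin k) S x))
    (hscal : ∀ p ∈ S, ∀ (f : EuclideanSpace ℝ (Fin n) → EuclideanSpace ℝ (Fin N))
      (V : Set (EuclideanSpace ℝ (Fin n))), IsLocalParam n N S p f V → 0 ≤ scalar f 0) :
    ∀ p ∈ S, ∀ (f : EuclideanSpace ℝ (Fin n) → EuclideanSpace ℝ (Fin N))
      (V : Set (EuclideanSpace ℝ (Fin n))), IsLocalParam n N S p f V →
      ∀ i j k l : Fin n, riem f 0 i j k l = 0 := by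
  exact N222.T.s0343 N222.T.noPos N222.C.cov N222.As.asph N222.C.core n N S hS hcpt hconn hasph hscal

end Crest.Agent.S0343
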