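import Crest.Statements.S0344
import Crest.Agent.N222.T.Final

set_option autoImplicit false
open Crest.GeometryTopology.Submanifold
open Crest Crest.GeometryTopology

namespace Crest.Agent.S0344

/-- Let S be a compact connected smooth n-submanifold of Euclidean N-space, n ≥ 2, whose induced metric has strictly positive scalar curvature everywhere (computed from local parametrisations by the Gauss equation). Then for every space X covered by a contractible space and every continuous map c from S to X, the map c induces on degree-n rational singular homology is zero. (For orientable S: the rational fundamental class dies in every aspherical space; for non-orientable S it is automatic.) -/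
theorem result
    (n N : ℕ) (hn : 2 ≤ n) (S : Set (EuclideanSpace ℝ (Fin N))) (hS : IsSubmanifold n N S)
    (hcpt : IsCompact S) (hconn : IsConnected S)
    (hscal : ∀ p ∈ S, ∀ (f : EuclideanSpace ℝ (Fin n) → EuclideanSpace ℝ (Fin N))
      (V : Set (EuclideanSpace ℝ (Fin n))), IsLocalParam n N S p f V → 0 < scalar f 0)
    (X : Type) [TopologicalSpace X] (hX : Crest.Topology.HasContractibleCover X)
    (c : C(S, X)) :
    (((AlgebraicTopology.singularHomologyFunctor (ModuleCat.{0} ℚ) n).obj (ModuleCat.of ℚ ℚ)).map
        (TopCat.ofHom c) :
      Crest.Topology.RationalHomology.rationalHomology S n
        ⟶ Crest.Topology.RationalHomology.rationalHomology X n) = 0 := by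
  exact N222.T.s0344 N222.T.noPos N222.C.cov N222.C.sing_stmt n N hn S hS hcpt hconn hscal X hX c

end Crest.Agent.S0344
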