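import Crest.Statements.S0352
import Crest.Agent.N228.O.Final
import Crest.Agent.N228.O.Br2
import Crest.Agent.N228.O.Nerve
import Crest.Agent.N228.N3.All
import Crest.Agent.N228.I.ARun
import Crest.Agent.N228.G.Final
import Crest.Agent.N228.G.Proj
import Crest.Agent.N228.Gr.Graft
import Crest.Agent.N228.T.Top
import Crest.Agent.N228.T.GS2
import Crest.Agent.N228.T.FRun
import Crest.Agent.N228.T.FSep
import Crest.Agent.N228.T.FEnd2

set_option autoImplicit false
open Crest.GeometryTopology.Submanifold
open Crest Crest.GeometryTopology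

namespace Crest.Agent.S0352

/-- For each n ≥ 3 there is a constant C, with C ≤ 500 if n = 3, such that: whenever S is a connected smooth n-submanifold that is a closed subset of a Euclidean space (complete; possibly non-compact) whose scalar curvature function s satisfies −4Δ + s ≥ 1 in the quadratic-form sense (∫(4‖∇φ‖² + sφ²) ≥ ∫φ² over S, φ smooth of compact support), there is a map, continuous on S, into the polyhedron of a simplicial complex of dimension ≤ n − 2, with points of equal image at intrinsic distance ≤ C. -/
theorem result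
    (n : ℕ) (hn : 3 ≤ n) :
    ∃ C : ℝ, (n = 3 → C ≤ 500) ∧ ∀ (N : ℕ) (S : Set (EuclideanSpace ℝ (Fin N))),
      IsSubmanifold n N S → IsClosed S → IsConnected S →
      ∀ s : EuclideanSpace ℝ (Fin N) → ℝ, scalarField n N S s → SpectralScalarBound S n s 1 →
      ∃ (ι : Type) (K : Set (Finset ι)) (F : EuclideanSpace ℝ (Fin N) → (ι → ℝ)),
        IsSimplicialComplexOfDim K (n - 2) ∧ ContinuousOn F S ∧
          Set.MapsTo F S (polyhedron K) ∧ fibreDiamLE S F C := by
  refine N228.s0352_of N228.bridge N228.nerve N228.N3.n3 (fun m hm => ?_) n hn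
  obtain ⟨C, hC⟩ := N228.I.runs (n := m) (by omega)
  exact ⟨C, N228.T.width_of N228.T.gstmt' N228.T.frun N228.T.fsep N228.T.fend' N228.T.top
    N228.G.car (N228.G.gstmt_of' N228.G.proj (Crest.Agent.N228.Gr.graft N228.G.car)) (by omega) hC⟩

end Crest.Agent.S0352
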