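import Crest.Statements.S0360
import Crest.Agent.N233.Ma.Fin
import Crest.Agent.N255.Wz.Sys
import Crest.Agent.N255.Tr.All
import Crest.Agent.N255.Ma.Vx2
import Crest.Agent.N255.Jt.Vd

set_option autoImplicit false
open Crest.Topology
open Crest Crest.GeometryTopology

namespace Crest.Agent.S0360

/-- There exist two compact, connected, Hausdorff, second countable spaces with atlases of charts into Euclidean four-space (closed topological four-manifolds), each covered by a contractible space through a surjective covering map (aspherical), which are homotopy equivalent but not homeomorphic, and such that the fundamental group of the first at each of its points is word-hyperbolic. -/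
theorem result :
    ∃ (M N : Type) (_ : TopologicalSpace M) (_ : TopologicalSpace N)
      (_ : ChartedSpace (EuclideanSpace ℝ (Fin 4)) M) (_ : ChartedSpace (EuclideanSpace ℝ (Fin 4)) N),
      T2Space M ∧ SecondCountableTopology M ∧ CompactSpace M ∧ ConnectedSpace M ∧
      T2Space N ∧ SecondCountableTopology N ∧ CompactSpace N ∧ ConnectedSpace N ∧
      HasContractibleCover M ∧ HasContractibleCover N ∧
      Nonempty (ContinuousMap.HomotopyEquiv M N) ∧ IsEmpty (M ≃ₜ N) ∧
      ∀ x : M, Crest.GroupTheory.IsHyperbolicGroup (FundamentalGroup M x) := by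
  exact (Crest.Agent.N233.Ma.both_prd (Crest.Agent.N255.Ma.prdS_of_parts Crest.Agent.N255.Wz.wallS
    Crest.Agent.N255.Ma.trS_holds (Crest.Agent.N255.Ma.vtxS_of_hj
      fun _ _ _ _ _ _ _ _ _ _ _ _ _ _ _ _ _ _ _ _ D K _ _ _ _ r a => D.hJ48 K r.ρ a))).1

end Crest.Agent.S0360
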