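import Crest.Statements.S0361
import Crest.Agent.N233.Ma.Fin
import Crest.Agent.N255.Wz.Sys
import Crest.Agent.N255.Tr.All
import Crest.Agent.N255.Ma.Vx2
import Crest.Agent.N255.Jt.Vd

set_option autoImplicit false
open Crest.Topology
open Crest Crest.GeometryTopology

namespace Crest.Agent.S0361

/-- There exist a compact, connected, Hausdorff, second countable space with an atlas of charts into Euclidean four-space (a closed topological four-manifold), covered by a contractible space through a surjective covering map (aspherical), and a homotopy equivalence from it to itself to which no self-homeomorphism is homotopic. -/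
theorem result :
    ∃ (M : Type) (_ : TopologicalSpace M) (_ : ChartedSpace (EuclideanSpace ℝ (Fin 4)) M),
      T2Space M ∧ SecondCountableTopology M ∧ CompactSpace M ∧ ConnectedSpace M ∧
      HasContractibleCover M ∧
      ∃ f : ContinuousMap.HomotopyEquiv M M,
        ∀ h : M ≃ₜ M, ¬ ContinuousMap.Homotopic (h : C(M, M)) f.toFun := by
  exact (Crest.Agent.N233.Ma.both_prd (Crest.Agent.N255.Ma.prdS_of_parts Crest.Agent.N255.Wz.wallS
    Crest.Agent.N255.Ma.trS_holds (Crest.Agent.N255.Ma.vtxS_of_hj
      fun _ _ _ _ _ _ _ _ _ _ _ _ _ _ _ _ _ _ _ _ D K _ _ _ _ r a => D.hJ48 K r.ρ a))).2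

end Crest.Agent.S0361
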