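import Crest.Statements.S0387
import Crest.Agent.N250.Top.G
import Crest.Agent.N250.Gl.Asm
import Crest.Agent.N250.R0.LEx
import Crest.Agent.N250.R0.LGood
import Crest.Agent.N250.R0.LEnd
import Crest.Agent.N250.R0.LJac
import Crest.Agent.N250.R0.LPhi
import Crest.Agent.N250.R0.LDat
import Crest.Agent.N250.R0.LII
import Crest.Agent.N250.R0.LNL
import Crest.Agent.N250.Lg.LinL
import Crest.Agent.N250.R0.LJa
import Crest.Agent.N250.R0.LMat
import Crest.Agent.N250.Fv.VarL
import Crest.Agent.N250.R0.LAct
import Crest.Agent.N250.Cn.Amb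
import Crest.Agent.N250.R0.LReal

set_option autoImplicit false
open Crest.GeometryTopology.MCF
open Crest Crest.GeometryTopology

namespace Crest.Agent.S0387

/-- Let `M t ⊆ ℝ³`, `0 ≤ t < T`, be a smooth mean curvature flow of closed bounded surfaces in level-set form (closed spacetime track, one ball containing every `M t`, local regular defining functions obeying the flow equation), `M 0` compact and connected. At every singular point `x₀` at time `T` some smooth properly embedded self-shrinker `S` has: the area measures of `λ·(M(T + s/λ²) - x₀)` converge weakly to those of `√(-s)·S` as `λ → ∞`, uniformly for `s` in compact parts of `(-∞, 0)`. -/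
theorem result (M : ℝ → Set E)
    (T : ℝ) (hT : 0 < T) (hM : IsSmoothMCF M T) (hc : IsCompact (M 0)) (hconn : IsConnected (M 0))
    (x₀ : E) (hx : IsSingularPoint M T x₀) :
    ∃ S : Set E, IsSelfShrinker S ∧ RescalingsConvergeTo M T x₀ S := by
  exact Crest.Agent.N250.Top.fin_G (Crest.Agent.N250.R0.gluedS_of
    Crest.Agent.N250.R0.exL
    Crest.Agent.N250.R0.goodL
    Crest.Agent.N250.R0.endL
    Crest.Agent.N250.R0.jacL
    (Crest.Agent.N250.R0.phiL_of Crest.Agent.N250.R0.datL Crest.Agent.N250.R0.iiL Crest.Agent.N250.R0.nlL)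
    (Crest.Agent.N250.R0.linL_of (Crest.Agent.N250.R0.jaL_of Crest.Agent.N250.R0.goodL Crest.Agent.N250.R0.endL Crest.Agent.N250.R0.jacL))
    Crest.Agent.N250.R0.matL
    Crest.Agent.N250.R0.Vc.varL
    Crest.Agent.N250.R0.actL
    Crest.Agent.N250.R0.amL
    Crest.Agent.N250.R0.realL)
    M T hT hM hc hconn x₀ hx

end Crest.Agent.S0387
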