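import Crest.Statements.S0393
import Crest.Agent.N255.Ma.Vx2

set_option autoImplicit false
open Crest Crest.GeometryTopology

namespace Crest.Agent.S0393

/-- There is a finitely presented group G having a finite simplicial complex of dimension at most four with path-connected underlying space, trivial higher homotopy groups and fundamental group G (a finite four-dimensional classifying space), with Hⁱ(G; ℤG) = 0 for i ≠ 4 and H⁴(G; ℤG) ≅ ℤ on which G acts trivially through right multiplication on ℤG (an orientable four-dimensional Poincaré duality group), yet no closed connected aspherical topological 4-manifold has fundamental group G. -/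
theorem result :
    ∃ (G : Type) (_ : Group G), Group.IsFinitelyPresented G ∧
      (∃ (N : ℕ) (K : Geometry.SimplicialComplex ℝ (EuclideanSpace ℝ (Fin N))),
        K.faces.Finite ∧ (∀ s ∈ K.faces, s.card ≤ 5) ∧ PathConnectedSpace K.space ∧
        (∀ n : ℕ, 2 ≤ n → ∀ x : K.space, Subsingleton (HomotopyGroup (Fin n) K.space x)) ∧
        ∃ x : K.space, Nonempty (FundamentalGroup K.space x ≃* G)) ∧
      (∀ i : ℕ, i ≠ 4 → CategoryTheory.Limits.IsZero (groupCohomology (Rep.leftRegular ℤ G) i)) ∧
      Nonempty (groupCohomology (Rep.leftRegular ℤ G) 4 ≃+ ℤ) ∧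
      (∀ g : G, (groupCohomology.functor ℤ G 4).map
          ((Rep.leftRegular ℤ G).leftRegularHom (MonoidAlgebra.single g (1 : ℤ))) =
        CategoryTheory.CategoryStruct.id (groupCohomology (Rep.leftRegular ℤ G) 4)) ∧
      ¬ ∃ (M : Type) (_ : TopologicalSpace M) (_ : ChartedSpace (EuclideanSpace ℝ (Fin 4)) M),
        T2Space M ∧ SecondCountableTopology M ∧ CompactSpace M ∧ ConnectedSpace M ∧
        (∀ n : ℕ, 2 ≤ n → ∀ x : M, Subsingleton (HomotopyGroup (Fin n) M x)) ∧
        ∃ x : M, Nonempty (FundamentalGroup M x ≃* G) := by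
  exact Crest.Agent.N255.Da.s0393_of (Crest.Agent.N255.Ma.noMf_of_vtx Crest.Agent.N255.Ma.vtxS_holds)

end Crest.Agent.S0393
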