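import Crest.Statements.S0519
import Crest.Agent.N334.Main.Main
import Crest.Agent.N334.Main.World
import Crest.Agent.N334.Main.Init
import Crest.Agent.N334.Main.Sw
import Crest.Agent.N334.Main.Gain
import Crest.Agent.N334.Main.Link
import Crest.Agent.N334.Main.Ledger
import Crest.Agent.N334.End.Main

set_option autoImplicit false
open MeasureTheory
open Crest.MathPhysics.Anderson
open Crest Crest.MathPhysics

namespace Crest.Agent.S0519

/-- Fix h > 0 and let the potentials at the sites of ℤ² be independent and uniformly distributed on [-h, h]. Then with probability one the operator (Hu)(x) = Σ_{y ~ x} u(y) + v_x u(x) on ℓ²(ℤ²) (sum over the four nearest neighbours) admits a Hilbert basis consisting of eigenvectors, and the closure of its set of eigenvalues (real E with a non-zero square-summable solution of Hu = Eu) is the interval [-4-h, 4+h]. -/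
theorem result
    (h : ℝ) (hh : 0 < h) :
    ∀ᵐ ω ∂(siteMeasure (Fin 2 → ℤ)),
      (∃ (ι : Type) (b : HilbertBasis ι ℂ (lp (fun _ : Fin 2 → ℤ => ℂ) 2)),
        ∀ i, ∃ E : ℝ,
          applyOp 2 1 (fun x => h * centredPotential ω x) (b i) = (E : ℂ) • ⇑(b i)) ∧
      closure {E : ℝ | ∃ u : lp (fun _ : Fin 2 → ℤ => ℂ) 2, u ≠ 0 ∧
          applyOp 2 1 (fun x => h * centredPotential ω x) u = (E : ℂ) • ⇑u} =
        Set.Icc (-4 - h) (4 + h) := by
  open Crest.Agent.N334 in
  exact End.s0519_of_Q hh (Mn.qstmt Mn.world Mn.init Mn.sw Mn.gainM Mn.link Mn.ledger hh)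

end Crest.Agent.S0519
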