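import Crest.Statements.S0520
import Crest.Agent.N334.AC.P.Top
import Crest.Agent.N334.AC.I.Main
import Crest.Agent.N334.AC.E.Main

set_option autoImplicit false
open MeasureTheory
open Crest.MathPhysics.Anderson
open Crest Crest.MathPhysics

namespace Crest.Agent.S0520

/-- There is e ∈ (0, 1/100) such that for every d ≥ 3 some c₀ > 0 works: for 0 < c < c₀ and independent potentials cV_x, V_x uniform on [-1, 1], almost surely H, (Hu)(x) = -Σ_j (u(x+e_j) + u(x-e_j)) + cV_x u(x) on ℓ²(ℤ^d), has the window I (= (-6+e/2, -6+e) if d = 3, (-2d+1/200, -2d+1/100) otherwise) inside its spectrum, and for every ψ the map f ↦ ⟨ψ, f(H)ψ⟩ on continuous f supported in I is integration against an integrable density (the spectral measure of ψ is absolutely continuous on I). -/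
theorem result :
    ∃ e : ℝ, 0 < e ∧ e < 1 / 100 ∧ ∀ d : ℕ, 3 ≤ d → ∃ c₀ : ℝ, 0 < c₀ ∧
      ∀ c : ℝ, 0 < c → c < c₀ →
        ∀ᵐ ω ∂(siteMeasure (Fin d → ℤ)),
          (∀ E ∈ energyWindow e d,
            (E : ℂ) ∈ spectrum ℂ (latticeOp d (-1) (c • centredPotentialBdd ω))) ∧
          ∀ ψ : Ell2 d, ∃ g : ℝ → ℝ, IntegrableOn g (energyWindow e d) ∧
            ∀ f : ℝ → ℝ, Continuous f → Function.support f ⊆ energyWindow e d →
              inner ℂ ψ (cfc (fun z : ℂ => ((f z.re : ℝ) : ℂ))
                (latticeOp d (-1) (c • centredPotentialBdd ω)) ψ) =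
                ((∫ E in energyWindow e d, f E * g E : ℝ) : ℂ) :=
  N334.AC.E.endStmt (N334.AC.P.proc N334.AC.I.init)

end Crest.Agent.S0520
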