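import Crest.Statements.S0522
import Crest.Agent.N336.All

set_option autoImplicit false
open Crest.MathPhysics.LatticeSpin
open Crest Crest.MathPhysics

namespace Crest.Agent.S0522

/-- For all q ≥ 1, R and J, Δ > 0 there is C such that: on every finite set Λ of sites in ℤ² (induced square-lattice graph, local dimension q), for every H = Σ_X h_X with h_X Hermitian, supported on X, of operator norm at most J, and zero unless X is non-empty of graph diameter at most R, and every unit vector Ω with HΩ = E₀Ω and H - E₀ ≥ Δ(1 - P_Ω), P_Ω the projection onto Ω, the entanglement entropy of Ω on any site set A is at most C times the number of lattice edges joining A to Λ∖A. -/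
theorem result
    (q R : ℕ) (J Δ : ℝ) (hq : 1 ≤ q) (hJ : 0 < J) (hΔ : 0 < Δ) :
    ∃ C : ℝ, ∀ (Λ₀ : Finset (ℤ × ℤ))
      (h : Finset ↥Λ₀ → Matrix (↥Λ₀ → Fin q) (↥Λ₀ → Fin q) ℂ),
      IsAdmissibleInteraction (latticeGraph Λ₀) R J h →
      ∀ (Ω : EuclideanSpace ℂ (↥Λ₀ → Fin q)) (E₀ : ℝ),
        IsGappedGroundVector (∑ X, h X) Ω E₀ Δ →
        ∀ A : Finset ↥Λ₀, entanglementEntropy Ω A ≤ C * (edgeBoundaryCard Λ₀ A : ℝ) := by
  exact Crest.Agent.N336.s0522_of (Crest.Agent.N336.area_of Crest.Agent.N336.rig_all) q R J Δ hq hJ hΔ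

end Crest.Agent.S0522
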