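import Crest.Statements.S0523
import Crest.Agent.N336.All

set_option autoImplicit false
open Crest.MathPhysics.LatticeSpin
open Crest Crest.MathPhysics

namespace Crest.Agent.S0523

/-- For all q ≥ 2 and J, Δ > 0 there are C, c > 0 such that for every L ≥ 2, every H on the open L × L grid with local dimension q equal to a sum of Hermitian on-site and nearest-neighbour terms of operator norm at most J, and every unit vector Ω with HΩ = E₀Ω and H - E₀ ≥ Δ(1 - P_Ω), P_Ω the projection onto Ω, a non-zero vector Φ contracted from a projected entangled-pair tensor network on the grid with all virtual dimensions equal to some D ≤ C·L^c has ‖Φ/‖Φ‖ - e^{iθ}Ω‖ ≤ 1/L for a real θ. -/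
theorem result
    (q : ℕ) (J Δ : ℝ) (hq : 2 ≤ q) (hJ : 0 < J) (hΔ : 0 < Δ) :
    ∃ C c : ℝ, 0 < C ∧ 0 < c ∧ ∀ L : ℕ, 2 ≤ L →
      ∀ (h : Finset (Fin L × Fin L) →
          Matrix (Fin L × Fin L → Fin q) (Fin L × Fin L → Fin q) ℂ),
        IsAdmissibleInteraction (gridGraph L) 1 J h →
        ∀ (Ω : EuclideanSpace ℂ (Fin L × Fin L → Fin q)) (E₀ : ℝ),
          IsGappedGroundVector (∑ X, h X) Ω E₀ Δ →
          ∃ D : ℕ, (D : ℝ) ≤ C * (L : ℝ) ^ c ∧
            ∃ T : Fin L × Fin L → Fin q → Fin D → Fin D → Fin D → Fin D → ℂ,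
              pepsVector L D q T ≠ 0 ∧ ∃ θ : ℝ,
                ‖((‖pepsVector L D q T‖⁻¹ : ℝ) : ℂ) • pepsVector L D q T
                    - Complex.exp ((θ : ℂ) * Complex.I) • Ω‖ ≤ ((L : ℝ))⁻¹ := by
  exact Crest.Agent.N336.P.s0523_of Crest.Agent.N336.P.cl Crest.Agent.N336.P.rt
    Crest.Agent.N336.P.sound (Crest.Agent.N336.vw_of Crest.Agent.N336.rig_all)
    (Crest.Agent.N336.pt_of Crest.Agent.N336.rig_all) Crest.Agent.N336.geo_all q J Δ hq hJ hΔ

end Crest.Agent.S0523
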