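import Crest.Statements.S0524
import Crest.Agent.N337.All
import Crest.Agent.N337.Asy.Main

set_option autoImplicit false
open Filter Topology Crest.MathPhysics.SpinModel
open Crest Crest.MathPhysics

namespace Crest.Agent.S0524

/-- Spin-`S` quantum Heisenberg ferromagnet on the boxes `{-N,…,N}³`, free boundary, with a nonnegative, even, finite-range pair coupling `J`, `J 0 = 0`, whose support generates `ℤ³` (`twoS = 2S`). The finite-volume pressures converge for every `β > 0` and field `h`; the limit has a right derivative `m β` in `h` at `0`; and `β^{3/2} (S - m β)` tends, as `β → ∞`, to `ζ(3/2) / (8 π^{3/2} √(det D))` with `D = (S/2) ∑_z J z · z zᵀ`, the zeta value taken as a real part. -/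
theorem result (twoS : ℕ) (hS : 1 ≤ twoS)
    (J : (Fin 3 → ℤ) → ℝ) (hJ0 : J 0 = 0) (hJsymm : ∀ z, J (-z) = J z) (hJpos : ∀ z, 0 ≤ J z)
    (hJfin : (Function.support J).Finite) (hJgen : AddSubgroup.closure (Function.support J) = ⊤) :
    ∃ (p : ℝ → ℝ → ℝ) (m : ℝ → ℝ), IsPressure 3 twoS J p ∧ IsMagnetization p m ∧
      Tendsto (fun β : ℝ => β ^ (3 / 2 : ℝ) * (spinVal twoS - m β)) atTop
        (𝓝 ((riemannZeta (3 / 2)).re / (8 * Real.pi ^ (3 / 2 : ℝ) *
          Real.sqrt (Matrix.det (Matrix.of fun a b : Fin 3 =>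
            spinVal twoS / 2 * ∑ᶠ z : Fin 3 → ℤ, J z * ((z a : ℝ) * (z b : ℝ))))))) := by
  exact N337.Asy.s0524_of N337.thermo N337.All.sand twoS hS J hJ0 hJsymm hJpos hJfin hJgen

end Crest.Agent.S0524
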