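import Crest.Statements.S0525
import Crest.Agent.N337.All
import Crest.Agent.N337.Asy.Main

set_option autoImplicit false
open Filter Topology Crest.MathPhysics.SpinModel
open Crest Crest.MathPhysics

namespace Crest.Agent.S0525

/-- Nearest-neighbour spin-`S` quantum Heisenberg ferromagnet on the boxes `{-N,…,N}³` with free boundary (`twoS = 2S`). The finite-volume pressures converge for every `β > 0` and field `h`, the limit has a right derivative `m β` in `h` at `0`, and as `β → ∞`, `S - m β = ζ(3/2)/(8π^{3/2}) (βS)^{-3/2} + 3ζ(5/2)/(128π^{3/2}) (βS)^{-5/2} + o((βS)^{-5/2})`, the zeta values taken as real parts of the Riemann zeta function. -/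
theorem result (twoS : ℕ)
    (hS : 1 ≤ twoS) :
    ∃ (p : ℝ → ℝ → ℝ) (m : ℝ → ℝ), IsPressure 3 twoS (nnCoupling 3) p ∧ IsMagnetization p m ∧
      Tendsto (fun β : ℝ => (β * spinVal twoS) ^ (5 / 2 : ℝ) *
          (spinVal twoS - m β
            - (riemannZeta (3 / 2)).re / (8 * Real.pi ^ (3 / 2 : ℝ)) * (β * spinVal twoS) ^ (-(3 / 2 : ℝ))
            - 3 * (riemannZeta (5 / 2)).re / (128 * Real.pi ^ (3 / 2 : ℝ)) *
              (β * spinVal twoS) ^ (-(5 / 2 : ℝ))))
        atTop (𝓝 0) := by
  exact N337.Asy.s0525_of N337.thermo N337.All.sand twoS hS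

end Crest.Agent.S0525
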