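import Crest.Statements.S0526
import Crest.Agent.N337.All
import Crest.Agent.N337.Asy.Main

set_option autoImplicit false
open Filter Topology Crest.MathPhysics.SpinModel
open Crest Crest.MathPhysics

namespace Crest.Agent.S0526

/-- Nearest-neighbour spin-`S` quantum Heisenberg ferromagnet on the boxes `{-N,…,N}³` with free boundary (`twoS = 2S`). The finite-volume pressures converge for every `β > 0` and field `h`, the limit has a right derivative `m β` in `h` at `0`, and `(βS)^{5/2} (S - m β - n(β))` tends to `0` as `β → ∞`, where `n(β)` is the ideal-magnon density: the integral over `[-π, π]³` of `1 / ((2π)³ (exp (β ε(k)) - 1))` with `ε(k) = 2S ∑_j (1 - cos k_j)`. -/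
theorem result
    (twoS : ℕ) (hS : 1 ≤ twoS) :
    ∃ (p : ℝ → ℝ → ℝ) (m : ℝ → ℝ), IsPressure 3 twoS (nnCoupling 3) p ∧ IsMagnetization p m ∧
      Tendsto (fun β : ℝ => (β * spinVal twoS) ^ (5 / 2 : ℝ) *
          (spinVal twoS - m β - idealMagnonDensity 3 twoS β)) atTop (𝓝 0) := by
  exact N337.Asy.s0526_of N337.thermo N337.All.sand twoS hS

end Crest.Agent.S0526
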