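import Crest.Statements.S0528
import Crest.Agent.N337.All
import Crest.Agent.N337.KMS.Main

set_option autoImplicit false
open Filter Topology Crest.MathPhysics.SpinModel Crest.MathPhysics.SpinModel.Infinite
open Crest Crest.MathPhysics

namespace Crest.Agent.S0528

/-- Nearest-neighbour spin-`S` quantum Heisenberg ferromagnet on `ℤ^d`, `d ≥ 3` (`twoS = 2S ≥ 1`), on its quasi-local algebra. Assume `τ` is a dynamics to which the finite-volume dynamics of the boxes `{-n,…,n}^d` converge in norm at every time on every element of the algebra (the infinite-volume dynamics, taken as given). Then for some `β₀ > 0` and every `β ≥ β₀`, some translation-invariant state is a `β`-KMS state for `τ` and gives `S^z` at the origin a real expectation at least `S/4`. -/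
theorem result
    (d twoS : ℕ) (hd : 3 ≤ d) (hS : 1 ≤ twoS) (τ : ℝ → quasiLocal d twoS → quasiLocal d twoS)
    (hτ : ∀ (t : ℝ) (A : quasiLocal d twoS),
      Tendsto (fun n : ℕ => boxDynamics d twoS n t A) atTop (𝓝 (τ t A))) :
    ∃ β₀ : ℝ, 0 < β₀ ∧ ∀ β : ℝ, β₀ ≤ β →
      ∃ ω : quasiLocal d twoS →L[ℂ] ℂ, IsState ω ∧ IsTranslationInvariant ω ∧ IsKMS τ β ω ∧
        (ω (siteMatrix 0 (spinZ twoS))).im = 0 ∧
        spinVal twoS / 4 ≤ (ω (siteMatrix 0 (spinZ twoS))).re := by
  exact N337.KMS.s0528_of N337.thermo N337.All.sand d twoS hd hS τ hτ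

end Crest.Agent.S0528
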