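import Crest.Statements.S0543
import Crest.Agent.N346.All

set_option autoImplicit false
open MeasureTheory Filter Topology
open scoped ContDiff ENNReal
open Crest.GeometryTopology.CoordMetric
open Crest.MathPhysics.ExteriorData
open Crest Crest.MathPhysics

namespace Crest.Agent.S0543

/-- Data on {x ∈ ℝ³ : 1 ≤ ‖x‖}: g smooth positive definite on ℝ³, K smooth symmetric, E, B smooth; g − δ = O₂(r^−q), q > 1/2, K = O₁(r^−1−q), E, B = O₁(r^−2); on the region div E = div B = 0, μ, ‖J‖ integrable, ‖J − 2 E×B‖ ≤ μ − ‖E‖² − ‖B‖² (all in the metric g); on the unit sphere θ₊ ≤ 0 or θ₋ ≤ 0 throughout; energy, momentum, charge fluxes tend to En, P, Q_E, Q_B. With Q² = Q_E² + Q_B², m = √(En² − ‖P‖²), A = minimum enclosing area: ‖P‖ < En, √(‖P‖² + Q²) ≤ En, Q ≤ m, √(A/4π) ≤ m + √(m² − Q²). -/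
theorem result
    (q : ℝ) (hq : 1 / 2 < q)
    (g K : MetricField 3) (hg : IsRiemannianOn g Set.univ)
    (hK : ∀ i j, ContDiff ℝ ∞ fun x => K x i j) (hKs : ∀ x i j, K x i j = K x j i)
    (E B : VectorField 3) (hEs : ∀ i, ContDiff ℝ ∞ fun x => E x i)
    (hBs : ∀ i, ContDiff ℝ ∞ fun x => B x i)
    (hdg : ∀ i j, DecaysAt 2 q fun x => g x i j - (1 : Matrix (Fin 3) (Fin 3) ℝ) i j)
    (hdK : ∀ i j, DecaysAt 1 (1 + q) fun x => K x i j)
    (hdE : ∀ i, DecaysAt 1 2 fun x => E x i) (hdB : ∀ i, DecaysAt 1 2 fun x => B x i)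
    (hdivE : ∀ x ∈ exteriorRegion 3, gDiv g E x = 0)
    (hdivB : ∀ x ∈ exteriorRegion 3, gDiv g B x = 0)
    (hμ : IntegrableOn (fun x => energyDensity g K x * volDensity g x) (exteriorRegion 3))
    (hJ : IntegrableOn (fun x => momentumNorm g K x * volDensity g x) (exteriorRegion 3))
    (hdec : ∀ x ∈ exteriorRegion 3,
      chargedMomentumNorm g K E B x ≤ chargedEnergyDensity g K E B x)
    (htrap : (∀ x : EuclideanSpace ℝ (Fin 3), ‖x‖ = 1 → futureExpansion g K x ≤ 0) ∨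
      (∀ x : EuclideanSpace ℝ (Fin 3), ‖x‖ = 1 → pastExpansion g K x ≤ 0))
    (En : ℝ) (P : EuclideanSpace ℝ (Fin 3)) (QE QB : ℝ)
    (hE : Tendsto (energyFlux g) atTop (𝓝 En))
    (hP : ∀ i, Tendsto (fun R => momentumFlux g K R i) atTop (𝓝 (P i)))
    (hQE : Tendsto (chargeFlux g E) atTop (𝓝 QE))
    (hQB : Tendsto (chargeFlux g B) atTop (𝓝 QB)) :
    ‖P‖ < En ∧ Real.sqrt (‖P‖ ^ 2 + (QE ^ 2 + QB ^ 2)) ≤ En ∧
      Real.sqrt (QE ^ 2 + QB ^ 2) ≤ Real.sqrt (En ^ 2 - ‖P‖ ^ 2) ∧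
      Real.sqrt ((minEnclosingArea g).toReal / (4 * Real.pi)) ≤
        Real.sqrt (En ^ 2 - ‖P‖ ^ 2) +
          Real.sqrt (Real.sqrt (En ^ 2 - ‖P‖ ^ 2) ^ 2 - (QE ^ 2 + QB ^ 2)) := by
  exact N346.s0543_of N346.apos N346.bv0 N346.normC N346.P0.p0 N346.p1 N346.P2.Fin.p2C q hq g K hg hK
    hKs E B hEs hBs hdg hdK hdE hdB hdivE hdivB hdec htrap En P QE QB hE hP hQE hQB

end Crest.Agent.S0543
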