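import Crest.Statements.S0544
import Crest.Agent.N346.All

set_option autoImplicit false
open MeasureTheory Filter Topology
open scoped ContDiff ENNReal
open Crest.GeometryTopology.CoordMetric
open Crest.MathPhysics.ExteriorData
open Crest Crest.MathPhysics

namespace Crest.Agent.S0544

/-- Dimension n = 3 or 4. Data (g, K) on {x ∈ ℝⁿ : 1 ≤ ‖x‖}: g smooth positive definite on ℝⁿ, K smooth symmetric, g − δ and K decaying only to orders 2 and 1 at rates q and 1 + q with q > (n−2)/2, μ and ‖J‖ integrable on the region with μ ≥ ‖J‖ there, the unit sphere weakly future trapped (θ₊ ≤ 0), energy and momentum fluxes tending to E and P. Then the minimum enclosing area A is positive, ‖P‖ < E, and ½ (A/ω)^((n−2)/(n−1)) ≤ √(E² − ‖P‖²), ω the area of the unit (n−1)-sphere. -/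
theorem result
    (n : ℕ) (hn : n = 3 ∨ n = 4) (q : ℝ) (hq : ((n : ℝ) - 2) / 2 < q)
    (g K : MetricField n) (hg : IsRiemannianOn g Set.univ)
    (hK : ∀ i j, ContDiff ℝ ∞ fun x => K x i j) (hKs : ∀ x i j, K x i j = K x j i)
    (hdg : ∀ i j, DecaysAt 2 q fun x => g x i j - (1 : Matrix (Fin n) (Fin n) ℝ) i j)
    (hdK : ∀ i j, DecaysAt 1 (1 + q) fun x => K x i j)
    (hμ : IntegrableOn (fun x => energyDensity g K x * volDensity g x) (exteriorRegion n))
    (hJ : IntegrableOn (fun x => momentumNorm g K x * volDensity g x) (exteriorRegion n))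
    (hdec : ∀ x ∈ exteriorRegion n, momentumNorm g K x ≤ energyDensity g K x)
    (htrap : ∀ x : EuclideanSpace ℝ (Fin n), ‖x‖ = 1 → futureExpansion g K x ≤ 0)
    (E : ℝ) (P : EuclideanSpace ℝ (Fin n))
    (hE : Tendsto (energyFlux g) atTop (𝓝 E))
    (hP : ∀ i, Tendsto (fun R => momentumFlux g K R i) atTop (𝓝 (P i))) :
    0 < minEnclosingArea g ∧ ‖P‖ < E ∧
      (1 / 2) * ((minEnclosingArea g).toReal / unitSphereArea n) ^ (((n : ℝ) - 2) / ((n : ℝ) - 1))
        ≤ Real.sqrt (E ^ 2 - ‖P‖ ^ 2) := by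
  exact N346.s0544_of N346.apos N346.bv0 N346.normU N346.P0.p0 N346.p1 N346.P2.Fin.p2U n hn q hq g K
    hg hK hKs hdg hdK hdec htrap E P hE hP

end Crest.Agent.S0544
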